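import Mathlib

/-! Perfect schedules, left-optimal schedules and the cut lemma. -/

namespace Vale.Agent.P324B

open Finset

variable {V : Type} [DecidableEq V]

/-- a perfect schedule of `G`: arcs go forward and every used slot holds exactly `m` jobs -/
def Sch (m : ℕ) (r : V → V → Prop) (G : Finset V) (τ : V → ℤ) : Prop :=
  (∀ x ∈ G, ∀ y ∈ G, r x y → τ x < τ y) ∧ ∀ x ∈ G, (G.filter fun y => τ y = τ x).card = m

def Feas (m : ℕ) (r : V → V → Prop) (G : Finset V) : Prop := ∃ τ, Sch m r G τ

/-- `L` can be run first, then the slot `S`, then `R` -/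
structure Split (m : ℕ) (r : V → V → Prop) (L S R : Finset V) : Prop where
  dLS : ∀ x ∈ L, x ∉ S
  dLR : ∀ x ∈ L, x ∉ R
  dSR : ∀ x ∈ S, x ∉ R
  card : S.card = m
  noarc : ∀ x y, (x ∈ S ∨ x ∈ R) → (y ∈ L ∨ y ∈ S) → ¬ r x y

variable {m : ℕ} {r : V → V → Prop}

lemma feas_empty : Feas m r ∅ := ⟨fun _ => 0, by simp, by simp⟩

lemma Feas.flip {G : Finset V} (h : Feas m r G) : Feas m (flip r) G := by
  obtain ⟨τ, h1, h2⟩ := h
  refine ⟨fun x => - τ x, fun x hx y hy hr => ?_, fun x hx => ?_⟩
  · have := h1 y hy x hx hr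
    simp only; omega
  · rw [← h2 x hx]
    congr 1
    ext y; simp

lemma Split.flip {L S R : Finset V} (h : Split m r L S R) : Split m (flip r) R S L :=
  ⟨fun x hx hs => h.dSR x hs hx, fun x hx hl => h.dLR x hl hx, fun x hx hl => h.dLS x hl hx,
    h.card, fun x y hx hy => h.noarc y x hy.symm hx.symm⟩

lemma exists_bound (G : Finset V) (τ : V → ℤ) : ∃ B : ℤ, ∀ x ∈ G, -B < τ x ∧ τ x < B := by
  refine ⟨∑ x ∈ G, |τ x| + 1, fun x hx => ?_⟩
  have := single_le_sum (f := fun x => |τ x|) (fun y _ => abs_nonneg (τ y)) hx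
  have h1 := le_abs_self (τ x)
  have h2 := neg_abs_le (τ x)
  constructor <;> linarith

lemma Split.sch {L S R : Finset V} (h : Split m r L S R) {σ τ : V → ℤ} (hL : Sch m r L σ)
    (hR : Sch m r R τ) : ∃ B : ℤ, (∀ x ∈ R, 0 < τ x + B) ∧
      ∃ B' : ℤ, Sch m r (L ∪ S ∪ R) fun x =>
        if x ∈ L then σ x - B' else if x ∈ S then 0 else τ x + B := by
  obtain ⟨B', hB'⟩ := exists_bound L σ
  obtain ⟨B, hB⟩ := exists_bound R τ
  refine ⟨B, fun x hx => by have := hB x hx; omega, B', fun x hx y hy hr => ?_, fun x hx => ?_⟩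
  · simp only [mem_union] at hx hy
    have hn := h.noarc x y
    by_cases xL : x ∈ L
    · have := hB' x xL
      by_cases yL : y ∈ L
      · have := hL.1 x xL y yL hr
        simp only [xL, yL, if_true]; omega
      · by_cases yS : y ∈ S
        · simp only [xL, yL, yS, if_true, if_false]; omega
        · have := hB y (by tauto)
          simp only [xL, yL, yS, if_true, if_false]; omega
    · have yL : y ∉ L := fun hy' => hn (by tauto) (Or.inl hy') hr
      have yS : y ∉ S := fun hy' => hn (by tauto) (Or.inr hy') hr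
      have yR : y ∈ R := by tauto
      have := hB y yR
      by_cases xS : x ∈ S
      · simp only [xL, yL, yS, xS, if_true, if_false]; omega
      · have := hR.1 x (by tauto) y yR hr
        simp only [xL, yL, yS, xS, if_false]; omega
  · simp only [mem_union] at hx
    by_cases xL : x ∈ L
    · rw [← hL.2 x xL]
      congr 1
      ext y
      have := hB' x xL
      simp only [mem_filter, mem_union, xL, if_true]
      by_cases yL : y ∈ L
      · simp [yL]
      · by_cases yS : y ∈ S
        · simp only [yL, yS, if_true, if_false]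
          constructor
          · rintro ⟨-, h⟩; omega
          · rintro ⟨h, -⟩; exact h.elim
        · simp only [yL, yS, if_false]
          constructor
          · rintro ⟨h1, h⟩
            have := hB y (by tauto)
            omega
          · rintro ⟨h, -⟩; exact h.elim
    · by_cases xS : x ∈ S
      · rw [← h.card]
        congr 1
        ext y
        simp only [mem_filter, mem_union, xL, xS, if_true, if_false]
        by_cases yL : y ∈ L
        · have := hB' y yL
          have := h.dLS y yL
          simp only [yL, if_true]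
          constructor
          · rintro ⟨-, h⟩; omega
          · intro h; contradiction
        · by_cases yS : y ∈ S
          · simp [yL, yS]
          · simp only [yL, yS, if_false]
            constructor
            · rintro ⟨h1, h⟩
              have := hB y (by tauto)
              omega
            · intro h; exact h.elim
      · have xR : x ∈ R := by tauto
        have := hB x xR
        rw [← hR.2 x xR]
        congr 1
        ext y
        simp only [mem_filter, mem_union, xL, xS, if_false]
        by_cases yL : y ∈ L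
        · have := hB' y yL
          have := h.dLR y yL
          simp only [yL, if_true]
          constructor
          · rintro ⟨-, h⟩; omega
          · rintro ⟨h, -⟩; contradiction
        · by_cases yS : y ∈ S
          · have := h.dSR y yS
            simp only [yL, yS, if_true, if_false]
            constructor
            · rintro ⟨-, h⟩; omega
            · rintro ⟨h, -⟩; contradiction
          · simp [yL, yS]

lemma Split.feas {L S R : Finset V} (h : Split m r L S R) (hL : Feas m r L) (hR : Feas m r R) :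
    Feas m r (L ∪ S ∪ R) := by
  obtain ⟨σ, hσ⟩ := hL
  obtain ⟨τ, hτ⟩ := hR
  obtain ⟨B, -, B', h'⟩ := h.sch hσ hτ
  exact ⟨_, h'⟩

lemma Sch.filter {G : Finset V} {τ : V → ℤ} (h : Sch m r G τ) (p : ℤ → Prop) [DecidablePred p] :
    Sch m r (G.filter fun x => p (τ x)) τ := by
  refine ⟨fun x hx y hy => h.1 x (mem_filter.1 hx).1 y (mem_filter.1 hy).1, fun x hx => ?_⟩
  rw [mem_filter] at hx
  rw [← h.2 x hx.1]
  congr 1
  ext y
  simp only [mem_filter]
  exact ⟨fun h => ⟨h.1.1, h.2⟩, fun h => ⟨⟨h.1, h.2 ▸ hx.2⟩, h.2⟩⟩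

/-- replacing `v` by an outside job `y` in the slot of `v` -/
lemma Sch.replace {G : Finset V} {τ : V → ℤ} (h : Sch m r G τ) {v y : V} (hv : v ∈ G)
    (hy : y ∉ G) (hyy : ¬ r y y) (h1 : ∀ w ∈ G, ¬ r w y) (h2 : ∀ w ∈ G, r y w → τ v < τ w) :
    Feas m r (insert y (G.erase v)) := by
  refine ⟨Function.update τ y (τ v), fun a ha b hb hr => ?_, fun a ha => ?_⟩
  · simp only [mem_insert, mem_erase] at ha hb
    rcases ha with rfl | ha <;> rcases hb with rfl | hb
    · exact (hyy hr).elim
    · have : b ≠ a := fun e => hy (e ▸ hb.2)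
      simp only [Function.update_self, Function.update_of_ne this]
      exact h2 b hb.2 hr
    · exact (h1 a ha.2 hr).elim
    · have h3 : a ≠ y := fun e => hy (e ▸ ha.2)
      have h4 : b ≠ y := fun e => hy (e ▸ hb.2)
      simp only [Function.update_of_ne h3, Function.update_of_ne h4]
      exact h.1 a ha.2 b hb.2 hr
  · have key : ∀ t : ℤ, ((insert y (G.erase v)).filter
        fun b => Function.update τ y (τ v) b = t).card = (G.filter fun b => τ b = t).card := by
      intro t
      have e1 : ((G.erase v).filter fun b => Function.update τ y (τ v) b = t) =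
          (G.filter fun b => τ b = t).erase v := by
        ext b
        simp only [mem_filter, mem_erase]
        constructor
        · rintro ⟨⟨h3, h4⟩, h5⟩
          rw [Function.update_of_ne (ne_of_mem_of_not_mem h4 hy)] at h5
          exact ⟨h3, h4, h5⟩
        · rintro ⟨h3, h4, h5⟩
          rw [Function.update_of_ne (ne_of_mem_of_not_mem h4 hy)]
          exact ⟨⟨h3, h4⟩, h5⟩
      rw [filter_insert, Function.update_self, e1]
      split_ifs with ht
      · rw [card_insert_of_notMem (by simp [hy]), card_erase_of_mem (by simp [hv, ht])]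
        have : 0 < (G.filter fun b => τ b = t).card := card_pos.2 ⟨v, by simp [hv, ht]⟩
        omega
      · rw [erase_eq_of_notMem (by simp [ht])]
    rw [key]
    simp only [mem_insert, mem_erase] at ha
    rcases ha with rfl | ha
    · rw [Function.update_self]; exact h.2 v hv
    · rw [Function.update_of_ne (ne_of_mem_of_not_mem ha.2 hy)]; exact h.2 a ha.2

/-- left-optimality: no slot can be improved by pulling in a later available job of smaller weight -/
def LexOpt (m : ℕ) (r : V → V → Prop) (w : V → ℤ) (G : Finset V) (τ : V → ℤ) : Prop :=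
  ∀ y ∈ G, ∀ v ∈ G, τ y < τ v → w v < w y → (∀ u ∈ G, r u v → τ u < τ y) →
    ¬ Feas m r (insert y ((G.filter fun x => τ y < τ x).erase v))

lemma exists_lexOpt (w : V → ℤ) (G : Finset V) (hG : Feas m r G) :
    ∃ τ, Sch m r G τ ∧ LexOpt m r w G τ := by
  classical
  induction hn : G.card using Nat.strong_induction_on generalizing G with
  | _ n ih =>
  rcases G.eq_empty_or_nonempty with rfl | hne
  · exact ⟨fun _ => 0, ⟨by simp, by simp⟩, by simp [LexOpt]⟩
  let P : Finset V → Prop := fun S => S.card = m ∧ (∀ x ∈ G, ∀ y ∈ S, ¬ r x y) ∧ Feas m r (G \ S)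
  obtain ⟨τ0, hτ0⟩ := hG
  obtain ⟨x0, hx0, hmin⟩ := exists_min_image G τ0 hne
  have hm : 0 < m := by
    rw [← hτ0.2 x0 hx0]; exact card_pos.2 ⟨x0, by simp [hx0]⟩
  have hP : (G.powerset.filter P).Nonempty := by
    refine ⟨G.filter fun y => τ0 y = τ0 x0, mem_filter.2 ⟨by simp, hτ0.2 x0 hx0, ?_, τ0, ?_⟩⟩
    · intro x hx y hy hr
      rw [mem_filter] at hy
      have := hτ0.1 x hx y hy.1 hr
      have := hmin x hx
      omega
    · have := hτ0.filter fun t => ¬ t = τ0 x0
      rwa [filter_not] at this
  obtain ⟨S, hS, hSmin⟩ := exists_min_image _ (fun S => ∑ x ∈ S, w x) hP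
  simp only [mem_filter, mem_powerset] at hS hSmin
  obtain ⟨hSG, hc, harc, hF⟩ := hS
  obtain ⟨τ, hτ, hopt⟩ := ih _ (by
    rw [← hn, card_sdiff_of_subset hSG]
    have := card_le_card hSG
    omega) (G \ S) hF rfl
  have hsp : Split m r ∅ S (G \ S) := ⟨by simp, by simp, by simp +contextual, hc, by
    intro x y hx hy
    simp only [notMem_empty, false_or] at hy
    refine harc x ?_ y hy
    rcases hx with hx | hx
    · exact hSG hx
    · exact (mem_sdiff.1 hx).1⟩
  obtain ⟨B, hB, B', h'⟩ := hsp.sch (σ := fun _ => 0) ⟨by simp, by simp⟩ hτ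
  simp only [empty_union, union_sdiff_of_subset hSG, notMem_empty, if_false] at h'
  refine ⟨_, h', fun y hy v hv h1 h2 h3 hf => ?_⟩
  have hvS : v ∉ S := by
    intro hvS
    simp only [hvS, if_true] at h1
    split_ifs at h1 with hyS
    · omega
    · have := hB y (by simp [hy, hyS]); omega
  simp only [hvS, if_false] at h1
  by_cases hyS : y ∈ S
  · simp only [hyS, if_true] at h1 h3 hf
    have e1 : (G.filter fun x => 0 < if x ∈ S then 0 else τ x + B) = G \ S := by
      ext x
      simp only [mem_filter, mem_sdiff]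
      refine and_congr_right fun hx => ?_
      split_ifs with hxS
      · simp [hxS]
      · simpa [hxS] using hB x (by simp [hx, hxS])
    rw [e1] at hf
    have h4 := hSmin (insert v (S.erase y)) ⟨?_, ?_, ?_, ?_⟩
    · rw [sum_insert (by simp [hvS]), ← add_sum_erase S w hyS] at h4
      omega
    · intro x hx
      simp only [mem_insert, mem_erase] at hx
      rcases hx with rfl | hx
      · exact hv
      · exact hSG hx.2
    · rw [card_insert_of_notMem (by simp [hvS]), card_erase_of_mem hyS]; omega
    · intro x hx z hz hr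
      simp only [mem_insert, mem_erase] at hz
      rcases hz with rfl | hz
      · have := h3 x hx hr
        split_ifs at this with hxS
        · omega
        · have := hB x (by simp [hx, hxS]); omega
      · exact harc x hx z hz.2 hr
    · have e2 : G \ insert v (S.erase y) = insert y ((G \ S).erase v) := by
        ext x
        simp only [mem_sdiff, mem_insert, mem_erase]
        by_cases hxy : x = y
        · subst hxy
          have : x ≠ v := fun e => hvS (e ▸ hyS)
          tauto
        · tauto
      rw [e2]; exact hf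
  · simp only [hyS, if_false] at h1 h3 hf
    have hyB := hB y (by simp [hy, hyS])
    refine hopt y (by simp [hy, hyS]) v (by simp [hv, hvS]) (by omega) h2 (fun u hu hr => ?_) ?_
    · rw [mem_sdiff] at hu
      have := h3 u hu.1 hr
      simp only [hu.2, if_false] at this
      omega
    · have e1 : (G.filter fun x => τ y + B < if x ∈ S then 0 else τ x + B) =
          (G \ S).filter fun x => τ y < τ x := by
        ext x
        simp only [mem_filter, mem_sdiff]
        split_ifs with hxS
        · simp only [hxS, not_true, and_false, false_and, iff_false, not_and]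
          intro _; omega
        · simp [hxS]
      rwa [e1] at hf

/-- The cut lemma. -/
lemma cut (htr : ∀ x y z, r x y → r y z → r x z) (w : V → ℤ) (k : ℤ) {G : Finset V}
    (hG : Feas m r G) (hne : G.Nonempty)
    (hup : ∀ x ∈ G, ∀ y ∈ G, r x y → k < w x → k < w y) :
    ∃ L S R : Finset V, Split m r L S R ∧ G = L ∪ S ∪ R ∧ S.Nonempty ∧ Feas m r L ∧ Feas m r R ∧
      (∀ x ∈ L, k < w x → ∃ y ∈ S, r x y) ∧ (∀ x ∈ R, w x ≤ k → ∃ y ∈ S, r y x) ∧
      (∀ x ∈ L, ∀ y, y ∈ L ∨ y ∈ S ∨ y ∈ R → r y x → y ∈ L) ∧
      (∀ y ∈ S, ∀ v ∈ R, w v < w y → (∀ u, u ∈ S ∨ u ∈ R → ¬ r u v) →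
        ¬ Feas m r (insert y (R.erase v))) ∧
      (∀ p ∈ G, w p ≤ k → (∀ u ∈ G, ¬ r u p) → ∀ y ∉ G, ¬ r y y → (∀ u ∈ G, ¬ r u y) →
        ¬ Feas m r (insert y (G.erase p)) → ∃ z, (z ∈ L ∨ z ∈ S) ∧ r y z) := by
  classical
  obtain ⟨τ, hτ, hopt⟩ := exists_lexOpt w G hG
  let P : V → Prop := fun c => ∀ x ∈ G, τ x < τ c → k < w x → ∃ y ∈ G, τ y = τ c ∧ r x y
  have hP : (G.filter P).Nonempty := by
    obtain ⟨x0, hx0, hmin⟩ := exists_min_image G τ hne
    exact ⟨x0, mem_filter.2 ⟨hx0, fun x hx h => by have := hmin x hx; omega⟩⟩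
  obtain ⟨c, hc, hcmax⟩ := exists_max_image _ τ hP
  simp only [mem_filter] at hc hcmax
  obtain ⟨hcG, hcP⟩ := hc
  have key : ∀ x ∈ G, τ c < τ x → w x ≤ k → ∃ y ∈ G, τ y = τ c ∧ r y x := by
    by_contra hcon
    push Not at hcon
    have hB : (G.filter fun x => τ c < τ x ∧ w x ≤ k ∧ ∀ y ∈ G, τ y = τ c → ¬ r y x).Nonempty := by
      obtain ⟨x, h1, h2, h3, h4⟩ := hcon
      exact ⟨x, mem_filter.2 ⟨h1, h2, h3, h4⟩⟩
    obtain ⟨v, hv, hvmin⟩ := exists_min_image _ τ hB
    simp only [mem_filter] at hv hvmin
    obtain ⟨hvG, hv1, hv2, hv3⟩ := hv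
    have hvp : ∀ u ∈ G, r u v → τ u < τ c := by
      intro u hu hr
      by_contra h
      have h1 := hτ.1 u hu v hvG hr
      have h2 : τ u ≠ τ c := fun e => hv3 u hu e hr
      have h3 : w u ≤ k := by
        by_contra h3
        have := hup u hu v hvG hr (by omega)
        omega
      have := hvmin u ⟨hu, by omega, h3, fun y hy e hr' => hv3 y hy e (htr _ _ _ hr' hr)⟩
      omega
    have hY : (G.filter fun z => τ z < τ v ∧ k < w z ∧ ∀ y ∈ G, τ y = τ v → ¬ r z y).Nonempty := by
      by_contra hY
      have : P v := by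
        intro x hx h1 h2
        by_contra h3
        push Not at h3
        exact hY ⟨x, mem_filter.2 ⟨hx, h1, h2, h3⟩⟩
      have := hcmax v ⟨hvG, this⟩
      omega
    obtain ⟨z, hz, hzmax⟩ := exists_max_image _ τ hY
    simp only [mem_filter] at hz hzmax
    obtain ⟨hzG, hz1, hz2, hz3⟩ := hz
    have hzs : ∀ u ∈ G, r z u → τ v < τ u := by
      intro u hu hr
      by_contra h
      have h1 := hτ.1 z hzG u hu hr
      have h2 : τ u ≠ τ v := fun e => hz3 u hu e hr
      have := hzmax u ⟨hu, by omega, hup z hzG u hu hr hz2,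
        fun y hy e hr' => hz3 y hy e (htr _ _ _ hr hr')⟩
      omega
    have hzc : τ c ≤ τ z := by
      by_contra h
      obtain ⟨y, hy, e, hr⟩ := hcP z hzG (by omega) hz2
      have := hzs y hy hr
      omega
    refine hopt z hzG v hvG hz1 (by omega) (fun u hu hr => by have := hvp u hu hr; omega) ?_
    refine (hτ.filter fun t => τ z < t).replace (by simp [hvG, hz1]) (by simp) ?_ ?_ ?_
    · intro hr
      have := hτ.1 z hzG z hzG hr
      omega
    · intro u hu hr
      rw [mem_filter] at hu
      have := hτ.1 u hu.1 z hzG hr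
      omega
    · intro u hu hr
      exact hzs u (mem_filter.1 hu).1 hr
  refine ⟨G.filter fun x => τ x < τ c, G.filter fun x => τ x = τ c, G.filter fun x => τ c < τ x,
    ⟨?_, ?_, ?_, hτ.2 c hcG, ?_⟩, ?_, ⟨c, by simp [hcG]⟩, ⟨τ, hτ.filter fun t => t < τ c⟩,
    ⟨τ, hτ.filter fun t => τ c < t⟩, ?_, ?_, ?_, ?_, ?_⟩
  · simp only [mem_filter]; intro x hx h; omega
  · simp only [mem_filter]; intro x hx h; omega
  · simp only [mem_filter]; intro x hx h; omega
  · simp only [mem_filter]
    intro x y hx hy hr
    have := hτ.1 x (by tauto) y (by tauto) hr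
    omega
  · ext x
    simp only [mem_union, mem_filter]
    constructor
    · intro hx
      rcases lt_trichotomy (τ x) (τ c) with h | h | h <;> simp [hx, h]
    · tauto
  · simp only [mem_filter]
    intro x hx h
    obtain ⟨y, h1, h2, h3⟩ := hcP x hx.1 hx.2 h
    exact ⟨y, ⟨h1, h2⟩, h3⟩
  · simp only [mem_filter]
    intro x hx h
    obtain ⟨y, h1, h2, h3⟩ := key x hx.1 hx.2 h
    exact ⟨y, ⟨h1, h2⟩, h3⟩
  · simp only [mem_filter]
    intro x hx y hy hr
    have hyG : y ∈ G := by tauto
    have := hτ.1 y hyG x hx.1 hr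
    exact ⟨hyG, by omega⟩
  · simp only [mem_filter]
    intro y hy v hv h1 h2
    have := hopt y hy.1 v hv.1 (by omega) h1 fun u hu hr => by
      by_contra h
      exact h2 u (by
        rcases lt_or_eq_of_le (not_lt.1 h) with h | h
        · exact Or.inr ⟨hu, by omega⟩
        · exact Or.inl ⟨hu, by omega⟩) hr
    rwa [hy.2] at this
  · intro p hp h1 h2 y hy h3 h4 h5
    have hpc : τ p ≤ τ c := by
      by_contra h
      obtain ⟨u, hu, -, hr⟩ := key p hp (by omega) h1
      exact h2 u hu hr
    by_contra hcon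
    refine h5 (hτ.replace hp hy h3 h4 fun u hu hr => ?_)
    by_contra h
    refine hcon ⟨u, ?_, hr⟩
    simp only [mem_filter]
    rcases lt_or_eq_of_le (show τ u ≤ τ c by omega) with h | h
    · exact Or.inl ⟨hu, h⟩
    · exact Or.inr ⟨hu, h⟩

end Vale.Agent.P324B
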