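import Vale.Agent.P324B.Defs
import Vale.Agent.P324B.Cut

/-! Schedules versus perfect schedules of the padded instance. -/

namespace Vale.Agent.P324B

open Finset

/-- the arc relation on natural numbers -/
def arc (adj : List (List ℕ)) (u v : ℕ) : Bool := decide (v < adj.length) && decide (v ∈ adj.getD u [])

lemma arc_iff {adj : List (List ℕ)} {u v : ℕ} : arc adj u v = true ↔
    ∃ (hu : u < adj.length) (_ : v < adj.length), v ∈ adj.get ⟨u, hu⟩ := by
  simp only [arc, Bool.and_eq_true, decide_eq_true_eq]
  constructor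
  · rintro ⟨h1, h2⟩
    by_cases hu : u < adj.length
    · exact ⟨hu, h1, by simpa [hu] using h2⟩
    · rw [List.getD_eq_default _ _ (by omega)] at h2
      simp at h2
  · rintro ⟨hu, hv, h⟩
    exact ⟨hv, by simpa [hu] using h⟩

variable {m T : ℕ} {adj : List (List ℕ)}

lemma HasSchedule.mono {T' : ℕ} (h : HasSchedule m adj T) (hT : T ≤ T') : HasSchedule m adj T' :=
  let ⟨τ, h1, h2⟩ := h; ⟨τ, fun v => ⟨(h1 v).1, (h1 v).2.trans hT⟩, h2⟩

lemma HasSchedule.len (h : HasSchedule m adj T) : HasSchedule m adj adj.length := by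
  obtain ⟨τ, -, h2, h3⟩ := h
  have key : ∀ u v, τ u < τ v → (univ.filter fun y => τ y ≤ τ u).card <
      (univ.filter fun y => τ y ≤ τ v).card := fun u v h =>
    card_lt_card ⟨fun y hy => by simp only [mem_filter, mem_univ, true_and] at hy ⊢; omega,
      fun hs => by have := hs (x := v) (by simp); simp at this; omega⟩
  refine ⟨fun v => (univ.filter fun y => τ y ≤ τ v).card, fun v => ⟨card_pos.2 ⟨v, by simp⟩, ?_⟩,
    fun t => ?_, fun u v h => key u v (h3 u v h)⟩
  · simpa using card_filter_le univ fun y => τ y ≤ τ v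
  · rcases (univ.filter fun v => (univ.filter fun y => τ y ≤ τ v).card = t).eq_empty_or_nonempty
      with h | ⟨v, hv⟩
    · simp [h]
    · refine le_trans (card_le_card fun u hu => ?_) (h2 (τ v))
      simp only [mem_filter, mem_univ, true_and] at hu hv ⊢
      rcases lt_trichotomy (τ u) (τ v) with h | h | h
      · have := key _ _ h; omega
      · exact h
      · have := key _ _ h; omega

lemma hasSchedule_min : HasSchedule m adj (min T adj.length) ↔ HasSchedule m adj T := by
  refine ⟨fun h => h.mono (min_le_left _ _), fun h => ?_⟩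
  rcases le_total T adj.length with h1 | h1
  · rwa [min_eq_left h1]
  · rw [min_eq_right h1]; exact h.len

lemma HasSchedule.card_le (h : HasSchedule m adj T) : adj.length ≤ m * T := by
  obtain ⟨τ, h1, h2, -⟩ := h
  have := card_le_mul_card_image_of_maps_to (s := univ) (t := Icc 1 T) (f := τ)
    (fun v _ => mem_Icc.2 (h1 v)) m fun t _ => h2 t
  simpa using this

/-- a schedule extends to a perfect schedule of the padded instance -/
lemma HasSchedule.pad (h : HasSchedule m adj T) : ∃ τ : Fin (m * T) → ℕ, (∀ x, τ x < T) ∧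
    (∀ x, (univ.filter fun y => τ y = τ x).card = m) ∧
    ∀ u v : Fin (m * T), arc adj u v = true → τ u < τ v := by
  have hn := h.card_le
  obtain ⟨σ, h1, h2, h3⟩ := h
  let f : Fin (m * T) → ℕ × ℕ := fun x => if hx : x.val < adj.length then
    (σ ⟨x, hx⟩ - 1, (univ.filter fun y => σ y = σ ⟨x, hx⟩ ∧ y.val < x.val).card) else (0, 0)
  have hidx : ∀ u v : Fin adj.length, σ u = σ v → u.val < v.val →
      (univ.filter fun y => σ y = σ u ∧ y.val < u.val).card <
      (univ.filter fun y => σ y = σ v ∧ y.val < v.val).card := fun u v e h =>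
    card_lt_card ⟨fun y hy => by simp only [mem_filter, mem_univ, true_and] at hy ⊢; omega,
      fun hs => by have := hs (x := u) (mem_filter.2 ⟨mem_univ _, e, h⟩); simp at this⟩
  obtain ⟨g, hg⟩ := exists_equiv_extend_of_card_eq (α := Fin (m * T))
    (t := range T ×ˢ range m) (by simp [mul_comm]) (s := univ.filter fun x => x.val < adj.length)
    (f := f) (by
      intro p hp
      simp only [mem_image, mem_filter, mem_univ, true_and] at hp
      obtain ⟨x, hx, rfl⟩ := hp
      simp only [f, hx, dif_pos, mem_product, mem_range]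
      have := h1 ⟨x, hx⟩
      refine ⟨by omega, lt_of_lt_of_le (card_lt_card ⟨fun y hy => ?_, fun hs => ?_⟩)
        (h2 (σ ⟨x, hx⟩))⟩
      · simp only [mem_filter, mem_univ, true_and] at hy ⊢; exact hy.1
      · have := hs (x := ⟨x, hx⟩) (by simp); simp at this) (by
      intro x hx y hy e
      simp only [coe_filter, mem_univ, true_and, Set.mem_setOf_eq] at hx hy
      simp only [f, hx, hy, dif_pos, Prod.mk.injEq] at e
      have a1 := h1 ⟨x, hx⟩
      have a2 := h1 ⟨y, hy⟩
      have e1 : σ ⟨x, hx⟩ = σ ⟨y, hy⟩ := by omega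
      rcases lt_trichotomy x.val y.val with h | h | h
      · have := hidx ⟨x, hx⟩ ⟨y, hy⟩ e1 h
        simp only at this; omega
      · exact Fin.ext h
      · have := hidx ⟨y, hy⟩ ⟨x, hx⟩ e1.symm h
        simp only at this; omega)
  refine ⟨fun x => (g x).1.1, fun x => ?_, fun x => ?_, fun u v h => ?_⟩
  · have := (g x).2
    simp only [mem_product, mem_range] at this
    exact this.1
  · have hx := (g x).2
    simp only [mem_product, mem_range] at hx
    refine (card_bij (t := range m) (fun y _ => (g y).1.2) (fun y _ => ?_) (fun y hy z hz e => ?_)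
      fun j hj => ?_).trans (card_range m)
    · have := (g y).2
      simp only [mem_product] at this
      exact this.2
    · simp only [mem_filter, mem_univ, true_and] at hy hz
      exact g.injective (Subtype.ext (Prod.ext (hy.trans hz.symm) e))
    · refine ⟨g.symm ⟨((g x).1.1, j), mem_product.2 ⟨mem_range.2 hx.1, hj⟩⟩, ?_, ?_⟩ <;> simp
  · obtain ⟨hu, hv, h⟩ := arc_iff.1 h
    have a1 := hg u (by simp [hu])
    have a2 := hg v (by simp [hv])
    have := h3 ⟨u, hu⟩ ⟨v, hv⟩ h
    have := h1 ⟨u, hu⟩
    simp only [a1, a2, f, hu, hv, dif_pos]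
    omega

/-- a perfect schedule of the padded instance gives a schedule -/
lemma hasSchedule_of_feas (hn : adj.length ≤ m * T) {r : Fin (m * T) → Fin (m * T) → Prop}
    (hr : ∀ u v : Fin (m * T), arc adj u v = true → r u v) (h : Feas m r univ) :
    HasSchedule m adj T := by
  obtain ⟨τ, h1, h2⟩ := h
  let c : Fin (m * T) → ℕ := fun x => (univ.filter fun y => τ y < τ x).card
  have hc : ∀ x, c x + m = (univ.filter fun y => τ y ≤ τ x).card := fun x => by
    refine (congrArg (c x + ·) (h2 x (mem_univ _)).symm).trans ?_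
    rw [← card_union_of_disjoint (disjoint_filter.2 fun y _ h => h.ne)]
    congr 1
    ext y
    simp [le_iff_lt_or_eq]
  have hm : ∀ x : Fin (m * T), 0 < m := fun x => Nat.pos_of_ne_zero fun e => by
    have := x.2; simp [e] at this
  have key : ∀ u v, τ u < τ v → c u / m + 1 < c v / m + 1 := fun u v h => by
    have : c u + m ≤ c v := by
      rw [hc]
      exact card_le_card fun y hy => by simp only [mem_filter, mem_univ, true_and] at hy ⊢; omega
    have h3 := Nat.div_le_div_right (c := m) this
    rw [Nat.add_div_right _ (hm u)] at h3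
    omega
  refine ⟨fun v => c (v.castLE hn) / m + 1, fun v => ⟨Nat.le_add_left _ _, ?_⟩, fun t => ?_,
    fun u v h => ?_⟩
  · have h3 : c (v.castLE hn) + m ≤ m * T := by
      rw [hc]; simpa using card_filter_le univ fun y => τ y ≤ τ (v.castLE hn)
    have h4 := Nat.div_le_div_right (c := m) h3
    rwa [Nat.add_div_right _ (hm (v.castLE hn)), Nat.mul_div_cancel_left _ (hm (v.castLE hn))] at h4
  · rcases (univ.filter fun v : Fin adj.length => c (v.castLE hn) / m + 1 = t).eq_empty_or_nonempty
      with h | ⟨v, hv⟩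
    · simp [h]
    · refine (card_le_card_of_injOn (Fin.castLE hn) (fun u hu => ?_)
        (Fin.castLE_injective hn).injOn).trans (h2 (v.castLE hn) (mem_univ _)).le
      simp only [coe_filter, mem_univ, true_and, Set.mem_setOf_eq, mem_filter] at hu hv ⊢
      rcases lt_trichotomy (τ (u.castLE hn)) (τ (v.castLE hn)) with h | h | h
      · have := key _ _ h; omega
      · exact h
      · have := key _ _ h; omega
  · exact key _ _ (h1 _ (mem_univ _) _ (mem_univ _) (hr _ _ (arc_iff.2 ⟨u.2, v.2, h⟩)))

end Vale.Agent.P324B
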