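import Vale.Agent.P324B.Main
import Vale.Agent.P324B.Pad

/-! The dynamic program and its correctness. -/

namespace Vale.Agent.P324B

open Finset

/-- one round of the transitive closure -/
def clStep (W : List ℕ) (adj A : List (List ℕ)) : List (List ℕ) :=
  W.map fun u => W.filter fun v => arc adj u v || W.any fun z => arc adj u z && decide (v ∈ A.getD z [])

/-- rank of a job: number of ancestors, ties broken by the index -/
def rk (W : List ℕ) (A : List (List ℕ)) (u : ℕ) : ℕ :=
  (W.filter fun z => decide (u ∈ A.getD z [])).length * W.length + u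

/-- the basic sets -/
def basics (W : List ℕ) (A : List (List ℕ)) : List (List ℕ) :=
  [] :: (W.map (fun x => [x]) ++ (W.map (fun x => A.getD x []) ++
    (W.map (fun x => W.filter fun y => decide (x ∈ A.getD y [])) ++
    (List.range (W.length * W.length + W.length + 1)).map fun k =>
      W.filter fun y => decide (k ≤ rk W A y))))

/-- closing a family once under the Sheffer stroke -/
def lev (W : List ℕ) (Φ : List (List ℕ)) : List (List ℕ) :=
  Φ ++ Φ.flatMap fun X => Φ.map fun Y => W.filter fun i => !(decide (i ∈ X) && decide (i ∈ Y))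

def fam (W : List ℕ) (A : List (List ℕ)) : ℕ → List (List ℕ)
  | 0 => basics W A
  | d + 1 => lev W (fam W A d)

/-- the test that `G` splits into `L`, a slot and `R` -/
def chk (m : ℕ) (W : List ℕ) (A : List (List ℕ)) (G L R : List ℕ) : Bool :=
  (W.all fun i => (!decide (i ∈ L) || decide (i ∈ G)) && ((!decide (i ∈ R) || decide (i ∈ G)) &&
    !(decide (i ∈ L) && decide (i ∈ R)))) &&
  (decide ((W.filter fun i => decide (i ∈ G) && (!decide (i ∈ L) && !decide (i ∈ R))).length = m) &&
  W.all fun x => W.all fun y => !((decide (x ∈ G) && !decide (x ∈ L)) &&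
    ((decide (y ∈ G) && !decide (y ∈ R)) && decide (y ∈ A.getD x []))))

def dpStep (m : ℕ) (W : List ℕ) (A Φ Fe : List (List ℕ)) : List (List ℕ) :=
  [] :: Φ.filter fun G => Fe.any fun L => Fe.any fun R => chk m W A G L R

def dp (m : ℕ) (W : List ℕ) (A Φ : List (List ℕ)) : Bool :=
  ((dpStep m W A Φ)^[W.length] [[]]).any fun G => W.all fun i => decide (i ∈ G)

def run (m : ℕ) (W : List ℕ) (A : List (List ℕ)) : Bool := dp m W A (fam W A (2 * m + 27))

def solve (m : ℕ) (adj : List (List ℕ)) (T : ℕ) : Bool :=
  decide (adj.length ≤ m * T) &&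
    run m (List.range (m * T)) ((clStep (List.range (m * T)) adj)^[T] [])

/-- the relation stored in a table -/
def rel (N : ℕ) (A : List (List ℕ)) (u v : Fin N) : Prop := v.val ∈ A.getD u []

def toF (N : ℕ) (l : List ℕ) : Finset (Fin N) := univ.filter fun x => x.val ∈ l

variable {N m : ℕ} {A : List (List ℕ)}

@[simp] lemma mem_toF {l : List ℕ} {x : Fin N} : x ∈ toF N l ↔ x.val ∈ l := by simp [toF]

lemma len_filter (p : ℕ → Bool) :
    ((List.range N).filter p).length = (univ.filter fun x : Fin N => p x = true).card := by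
  rw [← List.toFinset_card_of_nodup (List.nodup_range.filter _)]
  symm
  refine card_bij (fun x _ => x.val) (fun x hx => ?_) (fun x _ y _ e => Fin.ext e) fun y hy => ?_
  · simpa using hx
  · simp only [List.toFinset_filter, mem_filter, List.mem_toFinset, List.mem_range] at hy
    exact ⟨⟨y, hy.1⟩, by simpa using hy.2, rfl⟩

lemma all_range (p : ℕ → Bool) : (List.range N).all p = true ↔ ∀ x : Fin N, p x = true := by
  simp only [List.all_eq_true, List.mem_range]
  exact ⟨fun h x => h x x.2, fun h x hx => h ⟨x, hx⟩⟩

lemma chk_iff {G L R : List ℕ} : chk m (List.range N) A G L R = true ↔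
    Split m (rel N A) (toF N L) (toF N G \ (toF N L ∪ toF N R)) (toF N R) ∧
      toF N L ⊆ toF N G ∧ toF N R ⊆ toF N G := by
  have e : (univ.filter fun x : Fin N => (decide (x.val ∈ G) && (!decide (x.val ∈ L) &&
      !decide (x.val ∈ R))) = true) = toF N G \ (toF N L ∪ toF N R) := by
    ext x; simp
  simp only [chk, Bool.and_eq_true, all_range, len_filter, decide_eq_true_eq]
  simp only [Bool.and_eq_true, decide_eq_true_eq] at e
  rw [e]
  constructor
  · rintro ⟨h1, h2, h3⟩
    refine ⟨⟨fun x hx => by simp [mem_toF.1 hx], fun x hx hx' => ?_, fun x hx => ?_, h2,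
      fun x y hx hy hr => ?_⟩, fun x hx => ?_, fun x hx => ?_⟩
    · have := h1 x
      simp only [mem_toF] at hx hx'
      simp [hx, hx'] at this
    · simp only [mem_sdiff, mem_union, not_or] at hx
      exact hx.2.2
    · have a1 := h1 x
      have a2 := h1 y
      have a3 := h3 x y
      simp only [mem_sdiff, mem_union, mem_toF, rel] at hx hy hr
      simp only [hr, decide_true] at a3
      grind
    · have := h1 x
      simp only [mem_toF] at hx ⊢
      simp [hx] at this
      exact this.1
    · have := h1 x
      simp only [mem_toF] at hx ⊢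
      simp [hx] at this
      exact this.2.1
  · rintro ⟨h, h1, h2⟩
    refine ⟨fun x => ?_, h.card, fun x y => ?_⟩
    · have a1 := @h1 x
      have a2 := @h2 x
      have a3 := h.dLR x
      simp only [mem_toF] at a1 a2 a3
      grind
    · have a3 := h.noarc x y
      simp only [mem_sdiff, mem_union, mem_toF, rel] at a3
      simp only [Bool.not_eq_true', Bool.and_eq_false_iff, Bool.not_eq_false', decide_eq_true_eq,
        decide_eq_false_iff_not]
      tauto

lemma dp_sound (Φ : List (List ℕ)) (k : ℕ) :
    ∀ G ∈ (dpStep m (List.range N) A Φ)^[k] [[]], Feas m (rel N A) (toF N G) := by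
  have h0 : toF N [] = ∅ := by ext; simp
  induction k with
  | zero => simp [h0, feas_empty]
  | succ k ih =>
    intro G hG
    rw [Function.iterate_succ_apply'] at hG
    simp only [dpStep, List.mem_cons, List.mem_filter, List.any_eq_true] at hG
    rcases hG with rfl | ⟨-, L, hL, R, hR, h⟩
    · rw [h0]; exact feas_empty
    · obtain ⟨h1, h2, h3⟩ := chk_iff.1 h
      have e : toF N L ∪ (toF N G \ (toF N L ∪ toF N R)) ∪ toF N R = toF N G := by
        ext x
        have := @h2 x
        have := @h3 x
        simp only [mem_union, mem_sdiff]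
        tauto
      rw [← e]
      exact h1.feas (ih L hL) (ih R hR)

lemma dp_complete (Φ : List (List ℕ)) {G : Finset (Fin N)}
    (h : Der m (rel N A) (fun X => ∃ l ∈ Φ, X = ↑(toF N l)) G) :
    ∀ k, G.card ≤ k → ∃ l ∈ (dpStep m (List.range N) A Φ)^[k] [[]], toF N l = G := by
  induction h with
  | nil =>
    intro k _
    refine ⟨[], ?_, by ext; simp⟩
    cases k with
    | zero => simp
    | succ k => rw [Function.iterate_succ_apply']; simp [dpStep]
  | @cut L S R _ _ hs hne hF ih1 ih2 =>
    intro k hk
    have hc := card_lt_of_split hs hne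
    obtain ⟨k, rfl⟩ : ∃ j, k = j + 1 := ⟨k - 1, by omega⟩
    obtain ⟨l, hl, e⟩ := hF
    obtain ⟨l1, h1, rfl⟩ := ih1 k (by omega)
    obtain ⟨l2, h2, rfl⟩ := ih2 k (by omega)
    rw [coe_inj] at e
    refine ⟨l, ?_, e.symm⟩
    rw [Function.iterate_succ_apply']
    simp only [dpStep, List.mem_cons, List.mem_filter, List.any_eq_true]
    refine Or.inr ⟨hl, l1, h1, l2, h2, chk_iff.2 ⟨?_, ?_, ?_⟩⟩
    · have e' : toF N l \ (toF N l1 ∪ toF N l2) = S := by
        rw [← e]
        ext x
        have := hs.dLS x
        have := hs.dSR x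
        simp only [mem_union, mem_sdiff]
        tauto
      rwa [e']
    · rw [← e]; intro x hx; simp [hx]
    · rw [← e]; intro x hx; simp [hx]

lemma rk_lt (u : Fin N) : rk (List.range N) A u < N * N + N := by
  have := List.length_filter_le (fun z => decide (u.val ∈ A.getD z [])) (List.range N)
  have h2 := Nat.mul_le_mul_right N this
  have := u.2
  simp only [rk, List.length_range] at *
  omega

lemma fam_spec : Fam (rel N A) (fun u => (rk (List.range N) A u : ℤ))
    fun d X => ∃ l ∈ fam (List.range N) A d, X = ↑(toF N l) := by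
  have hge : ∀ k : ℤ, ∃ l ∈ fam (List.range N) A 0,
      {y : Fin N | k ≤ (rk (List.range N) A y : ℤ)} = ↑(toF N l) := fun k => by
    refine ⟨(List.range N).filter fun y => decide (min k.toNat (N * N + N) ≤ rk (List.range N) A y),
      ?_, ?_⟩
    · simp only [fam, basics, List.mem_cons, List.mem_append, List.mem_map, List.length_range]
      exact Or.inr (Or.inr (Or.inr (Or.inr ⟨_, List.mem_range.2 (by omega), rfl⟩)))
    · ext y
      have := rk_lt (A := A) y
      simp only [Set.mem_setOf_eq, mem_coe, mem_toF, List.mem_filter, List.mem_range, y.2, true_and,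
        decide_eq_true_eq]
      omega
  have hmono : ∀ d (X : Set (Fin N)), (∃ l ∈ fam (List.range N) A d, X = ↑(toF N l)) →
      ∃ l ∈ fam (List.range N) A (d + 1), X = ↑(toF N l) := by
    rintro d X ⟨l, hl, e⟩
    exact ⟨l, List.mem_append_left _ hl, e⟩
  have hnand : ∀ d (X Y : Set (Fin N)), (∃ l ∈ fam (List.range N) A d, X = ↑(toF N l)) →
      (∃ l ∈ fam (List.range N) A d, Y = ↑(toF N l)) →
      ∃ l ∈ fam (List.range N) A (d + 1), (X ∩ Y)ᶜ = ↑(toF N l) := by
    rintro d X Y ⟨l, hl, rfl⟩ ⟨l', hl', rfl⟩
    refine ⟨_, List.mem_append_right _ (List.mem_flatMap.2 ⟨l, hl, List.mem_map.2 ⟨l', hl', rfl⟩⟩),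
      ?_⟩
    ext y
    simp only [Set.mem_compl_iff, Set.mem_inter_iff, mem_coe, mem_toF, List.mem_filter,
      List.mem_range, y.2, true_and]
    grind
  refine ⟨hmono, hnand, ⟨[], by simp [fam, basics], by ext; simp⟩, fun x => ⟨[x], ?_, ?_⟩,
    fun x => ⟨A.getD x [], ?_, ?_⟩, fun x => ⟨(List.range N).filter fun y =>
      decide (x.val ∈ A.getD y []), ?_, ?_⟩, fun k => hmono _ _ (hge (k + 1)), fun k => ?_⟩
  · simp only [fam, basics, List.mem_cons, List.mem_append, List.mem_map]
    exact Or.inr (Or.inl ⟨x, List.mem_range.2 x.2, rfl⟩)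
  · ext y; simp [Fin.ext_iff]
  · simp only [fam, basics, List.mem_cons, List.mem_append, List.mem_map]
    exact Or.inr (Or.inr (Or.inl ⟨x, List.mem_range.2 x.2, rfl⟩))
  · ext y; simp only [Set.mem_setOf_eq, mem_coe, mem_toF, rel]
  · simp only [fam, basics, List.mem_cons, List.mem_append, List.mem_map]
    exact Or.inr (Or.inr (Or.inr (Or.inl ⟨x, List.mem_range.2 x.2, rfl⟩)))
  · ext y
    simp only [Set.mem_setOf_eq, mem_coe, mem_toF, rel, List.mem_filter, List.mem_range, y.2,
      true_and, decide_eq_true_eq]
  · have := hnand 0 _ _ (hge k) (hge k)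
    have e : ({y : Fin N | k ≤ (rk (List.range N) A y : ℤ)} ∩
        {y : Fin N | k ≤ (rk (List.range N) A y : ℤ)})ᶜ =
        {y : Fin N | (rk (List.range N) A y : ℤ) < k} := by
      ext y; simp
    rwa [e] at this

lemma run_sound (h : run m (List.range N) A = true) : Feas m (rel N A) univ := by
  simp only [run, dp, List.any_eq_true, all_range, decide_eq_true_eq] at h
  obtain ⟨G, hG, h⟩ := h
  have e : toF N G = univ := by ext x; simp [h x]
  rw [← e]
  exact dp_sound _ _ G hG

lemma run_complete (htr : ∀ x y z, rel N A x y → rel N A y z → rel N A x z)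
    (hirr : ∀ x, ¬ rel N A x x) (h : Feas m (rel N A) univ) : run m (List.range N) A = true := by
  have hd := der_univ htr (fun x y hr => ?_) (fun x y e => ?_) fam_spec h
  · obtain ⟨l, hl, e⟩ := dp_complete _ hd N (by simp)
    simp only [run, dp, List.any_eq_true, all_range, decide_eq_true_eq, List.length_range]
    exact ⟨l, hl, fun x => mem_toF.1 (e ▸ mem_univ x)⟩
  · have h1 : ((List.range N).filter fun z => decide (x.val ∈ A.getD z [])).length <
        ((List.range N).filter fun z => decide (y.val ∈ A.getD z [])).length := by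
      rw [len_filter, len_filter]
      refine card_lt_card ⟨fun z hz => ?_, fun hs => ?_⟩
      · simp only [mem_filter, mem_univ, true_and, decide_eq_true_eq] at hz ⊢
        exact htr z x y hz hr
      · have := hs (x := x) (by simpa [rel] using hr)
        exact hirr x (by simpa [rel] using this)
    have h2 := Nat.mul_le_mul_right N (Nat.succ_le_of_lt h1)
    have := x.2
    simp only [rk, List.length_range, Nat.cast_lt]
    rw [Nat.succ_mul] at h2
    omega
  · simp only [rk, List.length_range, Nat.cast_inj] at e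
    have h1 := congrArg (· % N) e
    simp only [Nat.mul_add_mod_self_right, Nat.mul_add_mod', Nat.mod_eq_of_lt x.2,
      Nat.mod_eq_of_lt y.2] at h1
    exact Fin.ext h1

lemma rel_clStep {adj : List (List ℕ)} {u v : Fin N} : rel N (clStep (List.range N) adj A) u v ↔
    arc adj u v = true ∨ ∃ z : Fin N, arc adj u z = true ∧ rel N A z v := by
  simp only [rel, clStep, List.getD_eq_getElem?_getD, List.getElem?_map,
    List.getElem?_range u.2, Option.map_some, Option.getD_some, List.mem_filter, List.mem_range,
    v.2, true_and, Bool.or_eq_true, List.any_eq_true, Bool.and_eq_true, decide_eq_true_eq]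
  exact or_congr_right ⟨fun ⟨z, hz, h⟩ => ⟨⟨z, hz⟩, h⟩, fun ⟨z, h⟩ => ⟨z, z.2, h⟩⟩

lemma rel_iter {adj : List (List ℕ)} {T : ℕ} {τ : Fin N → ℕ} (h1 : ∀ x, τ x < T)
    (h2 : ∀ u v : Fin N, arc adj u v = true → τ u < τ v) (k : ℕ) : ∀ u : Fin N, T ≤ τ u + k →
    ∀ v, rel N ((clStep (List.range N) adj)^[k] []) u v ↔
      Relation.TransGen (fun u v : Fin N => arc adj u v = true) u v := by
  induction k with
  | zero => intro u hu; have := h1 u; omega
  | succ k ih =>
    intro u hu v
    rw [Function.iterate_succ_apply', rel_clStep, Relation.TransGen.head'_iff]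
    constructor
    · rintro (h | ⟨z, hz, h⟩)
      · exact ⟨v, h, .refl⟩
      · exact ⟨z, hz, ((ih z (by have := h2 u z hz; omega) v).1 h).to_reflTransGen⟩
    · rintro ⟨z, hz, h⟩
      rcases Relation.reflTransGen_iff_eq_or_transGen.1 h with rfl | h
      · exact Or.inl hz
      · exact Or.inr ⟨z, hz, (ih z (by have := h2 u z hz; omega) v).2 h⟩

theorem solve_iff {adj : List (List ℕ)} {T : ℕ} : solve m adj T = true ↔ HasSchedule m adj T := by
  simp only [solve, Bool.and_eq_true, decide_eq_true_eq]
  constructor
  · rintro ⟨hn, h⟩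
    refine hasSchedule_of_feas hn (fun u v huv => ?_) (run_sound h)
    cases T with
    | zero => exact u.elim0
    | succ T => rw [Function.iterate_succ_apply', rel_clStep]; exact Or.inl huv
  · intro h
    obtain ⟨τ, h1, h2, h3⟩ := h.pad
    have hr := fun u => rel_iter h1 h3 T u (by omega)
    have hlt : ∀ u v, rel (m * T) ((clStep (List.range (m * T)) adj)^[T] []) u v → τ u < τ v := by
      intro u v h
      rw [hr] at h
      induction h with
      | single h => exact h3 _ _ h
      | tail _ h ih => exact ih.trans (h3 _ _ h)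
    refine ⟨h.card_le, run_complete (fun x y z a b => (hr _ _).2 (((hr _ _).1 a).trans
      ((hr _ _).1 b))) (fun x hx => lt_irrefl _ (hlt x x hx)) ⟨fun x => τ x, fun x _ y _ h => ?_,
      fun x _ => ?_⟩⟩
    · exact Int.ofNat_lt.2 (hlt x y h)
    · simpa using h2 x

end Vale.Agent.P324B
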