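import Mathlib.Data.Fintype.Card
import Vale.Agent.Lib.PTime.Defs

/-! Scheduling unit jobs with precedence constraints on `m` identical machines. -/

namespace Vale.Agent.P324B

/-- The jobs are `0, …, n - 1` with `n` the length of `adj`; the arcs are the pairs `(u, v)` of
jobs with `v` in the list `adj[u]`. A schedule of length `T` on `m` machines maps the jobs to
`{1, …, T}`, takes each value at most `m` times and increases along every arc. -/
def HasSchedule (m : ℕ) (adj : List (List ℕ)) (T : ℕ) : Prop :=
  ∃ τ : Fin adj.length → ℕ, (∀ v, 1 ≤ τ v ∧ τ v ≤ T) ∧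
    (∀ t, (Finset.univ.filter fun v => τ v = t).card ≤ m) ∧
    ∀ u v : Fin adj.length, v.val ∈ adj.get u → τ u < τ v

end Vale.Agent.P324B
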