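import Vale.Agent.P324B.Cut

/-! Every feasible instance decomposes through sets with a description of bounded depth. -/

namespace Vale.Agent.P324B

open Finset

variable {V : Type} [DecidableEq V]

/-- a graded family of sets containing the basic sets and closed under the Sheffer stroke -/
structure Fam (r : V → V → Prop) (π : V → ℤ) (F : ℕ → Set V → Prop) : Prop where
  mono : ∀ d X, F d X → F (d + 1) X
  nand : ∀ d X Y, F d X → F d Y → F (d + 1) (X ∩ Y)ᶜ
  empty : F 0 ∅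
  single : ∀ x, F 0 {x}
  succ : ∀ x, F 0 {y | r x y}
  pred : ∀ x, F 0 {y | r y x}
  gt : ∀ k, F 1 {y | k < π y}
  lt : ∀ k, F 1 {y | π y < k}

/-- derivable sets of the dynamic program -/
inductive Der (m : ℕ) (r : V → V → Prop) (F : Set V → Prop) : Finset V → Prop
  | nil : Der m r F ∅
  | cut {L S R : Finset V} : Der m r F L → Der m r F R → Split m r L S R → S.Nonempty →
      F ↑(L ∪ S ∪ R) → Der m r F (L ∪ S ∪ R)

variable {m : ℕ} {r : V → V → Prop} {π : V → ℤ} {F : ℕ → Set V → Prop}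

lemma Der.flip {F : Set V → Prop} {G : Finset V} (h : Der m r F G) : Der m (flip r) F G := by
  induction h with
  | nil => exact .nil
  | @cut L S R _ _ hs hne hF ih1 ih2 =>
    have e : L ∪ S ∪ R = R ∪ S ∪ L := by ext; simp only [mem_union]; tauto
    rw [e] at hF ⊢
    exact .cut ih2 ih1 hs.flip hne hF

omit [DecidableEq V] in
lemma Fam.flip (h : Fam r π F) : Fam (flip r) (fun x => - π x) F :=
  ⟨h.mono, h.nand, h.empty, h.single, h.pred, h.succ,
    fun k => by
      have e : {y | k < -π y} = {y | π y < -k} := by ext y; simp only [Set.mem_setOf_eq]; omega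
      rw [e]; exact h.lt _,
    fun k => by
      have e : {y | -π y < k} = {y | -k < π y} := by ext y; simp only [Set.mem_setOf_eq]; omega
      rw [e]; exact h.gt _⟩

section
omit [DecidableEq V]

lemma Fam.le (h : Fam r π F) {a b : ℕ} {X : Set V} (hX : F a X) (hab : a ≤ b) : F b X := by
  induction hab with
  | refl => exact hX
  | step _ ih => exact h.mono _ _ ih

lemma Fam.compl (h : Fam r π F) {a : ℕ} {X : Set V} (hX : F a X) : F (a + 1) Xᶜ := by
  simpa using h.nand a X X hX hX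

lemma Fam.inter (h : Fam r π F) {a b c : ℕ} {X Y : Set V} (hX : F a X) (hY : F b Y)
    (ha : a + 2 ≤ c) (hb : b + 2 ≤ c) : F c (X ∩ Y) := by
  have := h.compl (h.nand (c - 2) X Y (h.le hX (by omega)) (h.le hY (by omega)))
  rw [compl_compl] at this
  exact h.le this (by omega)

lemma Fam.union (h : Fam r π F) {a b c : ℕ} {X Y : Set V} (hX : F a X) (hY : F b Y)
    (ha : a + 2 ≤ c) (hb : b + 2 ≤ c) : F c (X ∪ Y) := by
  have := h.nand (c - 1) _ _ (h.le (h.compl hX) (by omega)) (h.le (h.compl hY) (by omega))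
  rw [← Set.compl_union, compl_compl] at this
  exact h.le this (by omega)

lemma Fam.sdiff (h : Fam r π F) {a b c : ℕ} {X Y : Set V} (hX : F a X) (hY : F b Y)
    (ha : a + 2 ≤ c) (hb : b + 3 ≤ c) : F c (X \ Y) :=
  h.inter hX (h.compl hY) ha (by omega)

lemma Fam.biUnion (h : Fam r π F) (f : V → Set V) (hf : ∀ x, F 0 (f x)) (S : Finset V) :
    F (2 * S.card) {y | ∃ x ∈ S, y ∈ f x} := by
  classical
  induction S using Finset.induction_on with
  | empty => simpa using h.empty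
  | insert a S ha ih =>
    have e : {y | ∃ x ∈ insert a S, y ∈ f x} = f a ∪ {y | ∃ x ∈ S, y ∈ f x} := by
      ext y; simp
    rw [e, card_insert_of_notMem ha]
    exact h.union (hf a) ih (by omega) (by omega)

/-- strict successors of a set -/
def suc (r : V → V → Prop) (S : Finset V) : Set V := {y | ∃ x ∈ S, r x y}
/-- strict predecessors of a set -/
def pre (r : V → V → Prop) (S : Finset V) : Set V := {y | ∃ x ∈ S, r y x}

lemma Fam.suc (h : Fam r π F) {S : Finset V} (hS : S.card ≤ m) : F (2 * m) (suc r S) :=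
  h.le (h.biUnion _ h.succ S) (by omega)

lemma Fam.pre (h : Fam r π F) {S : Finset V} (hS : S.card ≤ m) : F (2 * m) (pre r S) :=
  h.le (h.biUnion _ h.pred S) (by omega)

lemma Fam.fin (h : Fam r π F) {S : Finset V} (hS : S.card ≤ m) : F (2 * m) ↑S := by
  have := h.le (h.biUnion _ h.single S) (show 2 * S.card ≤ 2 * m by omega)
  simpa using this

end

/-- `y` cannot be exchanged with a free source of `G` of smaller rank -/
def OptR (m : ℕ) (r : V → V → Prop) (π : V → ℤ) (S G : Finset V) (y : V) : Prop :=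
  ∀ v ∈ G, π v < π y → (∀ u, u ∈ S ∨ u ∈ G → ¬ r u v) → ¬ Feas m r (insert y (G.erase v))

/-- the invariant of the recursion -/
structure St (m : ℕ) (r : V → V → Prop) (π : V → ℤ) (F : ℕ → Set V → Prop) (D : Set V)
    (G : Finset V) (U : Set V) (S : Finset V) (Lh Rh : Set V) (k : ℤ) : Prop where
  part : ∀ x, x ∈ G ↔ x ∉ D ∧ x ∉ U
  disj : ∀ x, x ∈ D → x ∉ U
  down : ∀ x y, r x y → y ∈ D → x ∈ D
  up : ∀ x y, r x y → x ∈ U → y ∈ U
  sD : ∀ y ∈ S, y ∈ D
  sc : S.card ≤ m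
  sS : ∀ y ∈ S, ∀ x, r y x → x ∉ D
  fL : F (2 * m + 15) Lh
  fR : F (2 * m + 11) Rh
  h1 : ∀ x ∈ G, (∃ y ∈ S, r y x) ∨ k < π x
  h2 : ∀ x ∈ G, k < π x → x ∈ Lh
  h3 : ∀ x ∈ Lh, k < π x → x ∈ D → ∃ y ∈ S, (x = y ∨ r x y) ∧ OptR m r π S G y
  h4 : ∀ x ∈ G, x ∈ Rh
  h5 : ∀ x ∈ Rh, x ∉ U

lemma St.desc (hF : Fam r π F) {D G U S Lh Rh k} (h : St m r π F D G U S Lh Rh k) :
    F (2 * m + 25) ↑G := by
  have e : (↑G : Set V) = Rh ∩ (suc r S ∪ (((Lh ∩ {y | k < π y}) \ pre r S) \ ↑S)) := by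
    ext x
    simp only [mem_coe, Set.mem_inter_iff, Set.mem_union, Set.mem_diff, Set.mem_setOf_eq, suc, pre]
    constructor
    · intro hx
      have hD := ((h.part x).1 hx).1
      refine ⟨h.h4 x hx, (h.h1 x hx).imp id fun hk => ⟨⟨⟨h.h2 x hx hk, hk⟩, ?_⟩, ?_⟩⟩
      · rintro ⟨y, hy, hr⟩
        exact hD (h.down _ _ hr (h.sD y hy))
      · exact fun hS => hD (h.sD x hS)
    · rintro ⟨hR, hx⟩
      refine (h.part x).2 ⟨fun hD => ?_, h.h5 x hR⟩
      rcases hx with ⟨y, hy, hr⟩ | ⟨⟨⟨h1, h2⟩, h3⟩, h4⟩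
      · exact h.sS y hy x hr hD
      · obtain ⟨y, hy, rfl | hr, -⟩ := h.h3 x h1 h2 hD
        · exact h4 hy
        · exact h3 ⟨y, hy, hr⟩
  rw [e]
  exact hF.inter h.fR (hF.union (c := 2 * m + 23) (hF.suc h.sc) (hF.sdiff (c := 2 * m + 21)
    (hF.sdiff (c := 2 * m + 19) (hF.inter (c := 2 * m + 17) h.fL (hF.gt k) (by omega) (by omega))
    (hF.pre h.sc) (by omega) (by omega)) (hF.fin h.sc) (by omega) (by omega)) (by omega)
    (by omega)) (by omega) (by omega)

lemma OptR.left {D : Set V} {L S' R S : Finset V} {y : V} (hs : Split m r L S' R)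
    (hR : Feas m r R) (hy : y ∈ D) (hdown : ∀ x y, r x y → y ∈ D → x ∈ D)
    (hD : ∀ x, x ∈ L ∨ x ∈ S' ∨ x ∈ R → x ∉ D)
    (h : OptR m r π S (L ∪ S' ∪ R) y) : OptR m r π S L y := by
  intro v hv h1 h2 hf
  refine h v (by simp [hv]) h1 (fun u hu => ?_) ?_
  · simp only [mem_union] at hu
    rcases hu with hu | (hu | hu) | hu
    · exact h2 u (Or.inl hu)
    · exact h2 u (Or.inr hu)
    · exact hs.noarc u v (Or.inl hu) (Or.inl hv)
    · exact hs.noarc u v (Or.inr hu) (Or.inl hv)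
  · have hs' : Split m r (insert y (L.erase v)) S' R := by
      refine ⟨fun x hx => ?_, fun x hx => ?_, hs.dSR, hs.card, fun a b ha hb hr => ?_⟩
      · simp only [mem_insert, mem_erase] at hx
        rcases hx with rfl | hx
        · exact fun hx => hD x (by tauto) hy
        · exact hs.dLS x hx.2
      · simp only [mem_insert, mem_erase] at hx
        rcases hx with rfl | hx
        · exact fun hx => hD x (by tauto) hy
        · exact hs.dLR x hx.2
      · simp only [mem_insert, mem_erase] at hb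
        rcases hb with (rfl | hb) | hb
        · exact hD a (by tauto) (hdown _ _ hr hy)
        · exact hs.noarc a b ha (Or.inl hb.2) hr
        · exact hs.noarc a b ha (Or.inr hb) hr
    have e : insert y ((L ∪ S' ∪ R).erase v) = insert y (L.erase v) ∪ S' ∪ R := by
      ext x
      have := hs.dLS v hv
      have := hs.dLR v hv
      simp only [mem_insert, mem_erase, mem_union]
      by_cases hx : x = v
      · subst hx; tauto
      · tauto
    rw [e]
    exact hs'.feas hf hR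

lemma card_lt_of_split {L S R : Finset V} (hs : Split m r L S R) (hne : S.Nonempty) :
    L.card < (L ∪ S ∪ R).card ∧ R.card < (L ∪ S ∪ R).card := by
  obtain ⟨x, hx⟩ := hne
  constructor
  · refine card_lt_card ⟨fun y hy => by simp [hy], fun h => hs.dLS x (h (by simp [hx])) hx⟩
  · refine card_lt_card ⟨fun y hy => by simp [hy], fun h => hs.dSR x hx (h (by simp [hx]))⟩

lemma St.right (htr : ∀ x y z, r x y → r y z → r x z) (hπ : ∀ x y, r x y → π x < π y)
    {D U S Lh Rh k} {L T R : Finset V} {k' : ℤ} (h : St m r π F D (L ∪ T ∪ R) U S Lh Rh k)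
    (hs : Split m r L T R) (hk : k ≤ k')
    (hP : (∃ p ∈ L ∪ T ∪ R, π p ≤ k' ∧ ∀ u, u ∈ S ∨ u ∈ L ∪ T ∪ R → ¬ r u p) ∨ ∀ x, π x ≤ k')
    (c1 : ∀ x ∈ L, k' < π x → ∃ y ∈ T, r x y) (c2 : ∀ x ∈ R, π x ≤ k' → ∃ y ∈ T, r y x)
    (c4 : ∀ y ∈ T, OptR m r π T R y)
    (c5 : ∀ p ∈ L ∪ T ∪ R, π p ≤ k' → (∀ u ∈ L ∪ T ∪ R, ¬ r u p) → ∀ y ∉ L ∪ T ∪ R, ¬ r y y →
      (∀ u ∈ L ∪ T ∪ R, ¬ r u y) → ¬ Feas m r (insert y ((L ∪ T ∪ R).erase p)) →
      ∃ z, (z ∈ L ∨ z ∈ T) ∧ r y z) :
    St m r π F {x | x ∈ D ∨ x ∈ L ∨ x ∈ T} R U T Lh Rh k' := by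
  have hp : ∀ x, x ∈ L ∨ x ∈ T ∨ x ∈ R ↔ x ∉ D ∧ x ∉ U := fun x => by
    rw [← h.part x]; simp only [mem_union, or_assoc]
  refine ⟨fun x => ?_, fun x hx => ?_, fun x y hr hy => ?_, h.up, fun y hy => Or.inr (Or.inr hy),
    hs.card.le, fun y hy x hr hx => ?_, h.fL, h.fR, fun x hx => ?_, fun x hx hk' => ?_,
    fun x hx hk' hD => ?_, fun x hx => h.h4 x (by simp [hx]), h.h5⟩
  · have := hp x
    have := hs.dLR x
    have := hs.dSR x
    simp only [Set.mem_setOf_eq]
    grind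
  · have := hp x
    have := h.disj x
    simp only [Set.mem_setOf_eq] at hx
    grind
  · have := hp x
    have := hp y
    have := h.down x y hr
    have := h.up x y hr
    have := hs.noarc x y
    simp only [Set.mem_setOf_eq] at hy ⊢
    grind
  · have := hp y
    have := h.down y x hr
    have := hs.noarc y x
    simp only [Set.mem_setOf_eq] at hx
    grind
  · by_cases hk' : k' < π x
    · exact Or.inr hk'
    · exact Or.inl (c2 x hx (not_lt.1 hk'))
  · exact h.h2 x (by simp [hx]) (by omega)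
  · rcases hD with hD | hD | hD
    · obtain ⟨y, hy, hxy, hopt⟩ := h.h3 x hx (by omega) hD
      have hyD := h.sD y hy
      have hle : π x ≤ π y := by
        rcases hxy with rfl | hr
        · exact le_rfl
        · exact (hπ _ _ hr).le
      rcases hP with ⟨p, hpG, hpk, hps⟩ | hP
      · obtain ⟨z, hz, hr⟩ := c5 p hpG hpk (fun u hu => hps u (Or.inr hu)) y
          (fun hy' => ((h.part y).1 hy').1 hyD) (fun hr => lt_irrefl _ (hπ _ _ hr))
          (fun u hu hr => ((h.part u).1 hu).1 (h.down _ _ hr hyD)) (hopt p hpG (by omega) hps)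
        have hxz : r x z := by
          rcases hxy with rfl | hr'
          · exact hr
          · exact htr _ _ _ hr' hr
        rcases hz with hz | hz
        · obtain ⟨y', hy', hr'⟩ := c1 z hz (by have := hπ _ _ hxz; omega)
          exact ⟨y', hy', Or.inr (htr _ _ _ hxz hr'), c4 y' hy'⟩
        · exact ⟨z, hz, Or.inr hxz, c4 z hz⟩
      · have := hP x; omega
    · obtain ⟨y, hy, hr⟩ := c1 x hD hk'
      exact ⟨y, hy, Or.inr hr, c4 y hy⟩
    · exact ⟨x, hD, Or.inl rfl, c4 x hD⟩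

lemma St.leftLeft (hF : Fam r π F) {D U S Lh Rh k} {L T2 R2 T R P : Finset V}
    (h : St m r π F D (L ∪ T2 ∪ R2 ∪ T ∪ R) U S Lh Rh k) (hs : Split m r (L ∪ T2 ∪ R2) T R)
    (hs2 : Split m r L T2 R2) (hR : Feas m r R) (hR2 : Feas m r R2) (hP : P.card ≤ 1)
    (hPG : ∀ p ∈ P, p ∈ L ∪ T2 ∪ R2)
    (d1 : ∀ x ∈ L, (x ∈ pre r T ∨ x ∈ P) ∨ x ∈ pre r T2)
    (d2 : ∀ x ∈ R2, (x ∈ pre r T ∨ x ∈ P) → x ∈ suc r T2) :
    St m r π F D L {x | x ∈ U ∨ x ∈ T ∨ x ∈ R ∨ x ∈ T2 ∨ x ∈ R2} S Lh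
      ((((pre r T ∪ ↑P) \ suc r T2) \ ↑T2) ∪ pre r T2) k := by
  have hp : ∀ x, x ∈ L ∨ x ∈ T2 ∨ x ∈ R2 ∨ x ∈ T ∨ x ∈ R ↔ x ∉ D ∧ x ∉ U := fun x => by
    rw [← h.part x]; simp only [mem_union, or_assoc]
  have n1 : ∀ x y, x ∈ T ∨ x ∈ R → y ∈ L ∨ y ∈ T2 ∨ y ∈ R2 ∨ y ∈ T → ¬ r x y := fun x y hx hy =>
    hs.noarc x y hx (by simp only [mem_union]; tauto)
  have n2 : ∀ x, x ∈ L ∨ x ∈ T2 ∨ x ∈ R2 → x ∉ T ∧ x ∉ R := fun x hx =>
    ⟨hs.dLS x (by simp only [mem_union]; tauto), hs.dLR x (by simp only [mem_union]; tauto)⟩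
  refine ⟨fun x => ?_, fun x hx => ?_, h.down, fun x y hr hx => ?_, h.sD, h.sc, h.sS, h.fL, ?_,
    fun x hx => h.h1 x (by simp [hx]), fun x hx => h.h2 x (by simp [hx]), fun x hx hk hD => ?_,
    fun x hx => ?_, fun x hx hU => ?_⟩
  · have := hp x
    have := n2 x
    have := hs2.dLS x
    have := hs2.dLR x
    simp only [Set.mem_setOf_eq]
    grind
  · have := hp x
    have := h.disj x
    simp only [Set.mem_setOf_eq]
    grind
  · have := hp x
    have := hp y
    have := h.down x y hr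
    have := h.up x y hr
    have := n1 x y
    have := hs2.noarc x y
    simp only [Set.mem_setOf_eq] at hx ⊢
    grind
  · exact hF.union (hF.sdiff (c := 2 * m + 8) (hF.sdiff (c := 2 * m + 6)
      (hF.union (c := 2 * m + 4) (hF.pre hs.card.le) (hF.fin hP) (by omega) (by omega))
      (hF.suc hs2.card.le) (by omega) (by omega)) (hF.fin hs2.card.le) (by omega) (by omega))
      (hF.pre hs2.card.le) (by omega) (by omega)
  · obtain ⟨y, hy, hxy, hopt⟩ := h.h3 x hx hk hD
    refine ⟨y, hy, hxy, OptR.left hs2 hR2 (h.sD y hy) h.down (fun x hx => ?_)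
      (OptR.left hs hR (h.sD y hy) h.down (fun x hx => ?_) hopt)⟩
    · have := hp x; tauto
    · have := hp x
      simp only [mem_union] at hx
      grind
  · rcases d1 x hx with h1 | h1
    · refine Or.inl ⟨⟨h1, ?_⟩, hs2.dLS x hx⟩
      rintro ⟨y, hy, hr⟩
      exact hs2.noarc y x (Or.inl hy) (Or.inl hx) hr
    · exact Or.inr h1
  · simp only [Set.mem_setOf_eq] at hU
    rcases hx with ⟨⟨h1, h2⟩, h3⟩ | ⟨y, hy, hr⟩
    · have h4 := d2 x
      rcases h1 with ⟨y, hy, hr⟩ | h1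
      · have := hp y
        have := h.up x y hr
        have := n1 x y
        have : x ∈ pre r T := ⟨y, hy, hr⟩
        simp only [mem_coe] at h3
        grind
      · have h5 := hPG x h1
        have := hp x
        have := n2 x
        simp only [mem_coe, mem_union] at h3 h5 h1
        grind
    · have := hp y
      have := h.up x y hr
      have := n1 x y
      have := hs2.noarc x y
      grind

lemma St.leftRight (hF : Fam r π F) {D U S Lh Rh k} {L T2 R2 T R : Finset V} {k' : ℤ}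
    (h : St m r π F D (L ∪ T2 ∪ R2 ∪ T ∪ R) U S Lh Rh k) (hs : Split m r (L ∪ T2 ∪ R2) T R)
    (hs2 : Split m r L T2 R2)
    (c1 : ∀ x ∈ R2, k' < π x → x ∈ pre r T) (c2 : ∀ x ∈ R, π x ≤ k' → x ∈ suc r T)
    (d1 : ∀ x ∈ L, x ∈ suc r S → x ∈ pre r T ∨ x ∈ pre r T2)
    (d2 : ∀ x ∈ R2, (x ∈ suc r S ∧ x ∉ pre r T) ∨ x ∈ suc r T2) :
    St m (flip r) (fun x => - π x) F {x | x ∈ U ∨ x ∈ T ∨ x ∈ R} R2 {x | x ∈ D ∨ x ∈ L ∨ x ∈ T2} T
      ((Rh \ suc r T) \ ↑T) ((((suc r S \ pre r T) \ pre r T2) \ ↑T2) ∪ suc r T2) (- k' - 1) := by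
  have hp : ∀ x, x ∈ L ∨ x ∈ T2 ∨ x ∈ R2 ∨ x ∈ T ∨ x ∈ R ↔ x ∉ D ∧ x ∉ U := fun x => by
    rw [← h.part x]; simp only [mem_union, or_assoc]
  have n1 : ∀ x y, x ∈ T ∨ x ∈ R → y ∈ L ∨ y ∈ T2 ∨ y ∈ R2 ∨ y ∈ T → ¬ r x y := fun x y hx hy =>
    hs.noarc x y hx (by simp only [mem_union]; tauto)
  have n2 : ∀ x, x ∈ L ∨ x ∈ T2 ∨ x ∈ R2 → x ∉ T ∧ x ∉ R := fun x hx =>
    ⟨hs.dLS x (by simp only [mem_union]; tauto), hs.dLR x (by simp only [mem_union]; tauto)⟩
  refine ⟨fun x => ?_, fun x hx => ?_, fun x y (hr : r y x) hy => ?_, fun x y (hr : r y x) hx => ?_,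
    fun y hy => Or.inr (Or.inl hy), hs.card.le, fun y hy x (hr : r x y) hx => ?_, ?_, ?_,
    fun x hx => ?_, fun x hx _ => ?_, fun x hx hk hD => ?_, fun x hx => ?_, fun x hx hU => ?_⟩
  · have := hp x
    have := n2 x
    have := hs2.dLR x
    have := hs2.dSR x
    simp only [Set.mem_setOf_eq]
    grind
  · have := hp x
    have := n2 x
    have := h.disj x
    simp only [Set.mem_setOf_eq] at hx ⊢
    grind
  · have := hp x
    have := hp y
    have := h.down y x hr
    have := h.up y x hr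
    have := n1 y x
    simp only [Set.mem_setOf_eq] at hy ⊢
    grind
  · have := hp x
    have := hp y
    have := h.down y x hr
    have := h.up y x hr
    have := n1 y x
    have := hs2.noarc y x
    simp only [Set.mem_setOf_eq] at hx ⊢
    grind
  · have := hp y
    have := h.up x y hr
    have := n1 x y
    simp only [Set.mem_setOf_eq] at hx
    grind
  · exact hF.sdiff (hF.sdiff (c := 2 * m + 13) h.fR (hF.suc hs.card.le) (by omega) (by omega))
      (hF.fin hs.card.le) (by omega) (by omega)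
  · exact hF.union (hF.sdiff (c := 2 * m + 7) (hF.sdiff (c := 2 * m + 5)
      (hF.sdiff (c := 2 * m + 3) (hF.suc h.sc) (hF.pre hs.card.le) (by omega) (by omega))
      (hF.pre hs2.card.le) (by omega) (by omega)) (hF.fin hs2.card.le) (by omega) (by omega))
      (hF.suc hs2.card.le) (by omega) (by omega)
  · by_cases hk : k' < π x
    · exact Or.inl (c1 x hx hk)
    · exact Or.inr (by omega)
  · refine ⟨⟨h.h4 x (by simp [hx]), ?_⟩, (n2 x (by tauto)).1⟩
    rintro ⟨y, hy, hr⟩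
    exact n1 y x (Or.inl hy) (by tauto) hr
  · obtain ⟨⟨h1, h2⟩, h3⟩ := hx
    rcases hD with hD | hD | hD
    · exact (h.h5 x h1 hD).elim
    · exact (h3 hD).elim
    · exact (h2 (c2 x hD (by omega))).elim
  · rcases d2 x hx with h1 | h1
    · refine Or.inl ⟨⟨h1, ?_⟩, fun h2 => hs2.dSR x h2 hx⟩
      rintro ⟨y, hy, hr⟩
      exact hs2.noarc x y (Or.inr hx) (Or.inr hy) hr
    · exact Or.inr h1
  · rcases hx with ⟨⟨⟨h1, h2⟩, h3⟩, h4⟩ | ⟨y, hy, hr⟩
    · rcases hU with hU | hU | hU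
      · obtain ⟨y, hy, hr⟩ := h1
        exact h.sS y hy x hr hU
      · exact (d1 x hU h1).elim h2 h3
      · exact h4 hU
    · have := hp y
      have := h.down y x hr
      have := hs2.noarc y x
      simp only [Set.mem_setOf_eq] at hU
      grind

theorem main [Fintype V] (n : ℕ) : ∀ (r : V → V → Prop) (π : V → ℤ),
    (∀ x y z, r x y → r y z → r x z) → (∀ x y, r x y → π x < π y) → Function.Injective π →
    Fam r π F → ∀ D G U S Lh Rh k, St m r π F D G U S Lh Rh k → G.card ≤ n → Feas m r G →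
      Der m r (F (2 * m + 27)) G := by
  classical
  induction n with
  | zero =>
    intro r π _ _ _ _ D G U S Lh Rh k _ hc _
    rw [card_eq_zero.1 (Nat.le_zero.1 hc)]
    exact .nil
  | succ n ih =>
  intro r π htr hπ hinj hF D G U S Lh Rh k h hc hG
  rcases G.eq_empty_or_nonempty with rfl | hne
  · exact .nil
  obtain ⟨k', P, hk, hPc, hPs, hP1, hP2⟩ : ∃ (k' : ℤ) (P : Finset V), k ≤ k' ∧ P.card ≤ 1 ∧
      (∀ p ∈ P, ∀ u, u ∈ S ∨ u ∈ G → ¬ r u p) ∧ (∀ x ∈ G, π x ≤ k' → x ∈ P ∨ x ∈ suc r S) ∧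
      ((∃ p ∈ G, π p ≤ k' ∧ ∀ u, u ∈ S ∨ u ∈ G → ¬ r u p) ∨ ∀ x, π x ≤ k') := by
    by_cases hfr : (G.filter fun x => ¬ ∃ y ∈ S, r y x).Nonempty
    · obtain ⟨p, hp, hmin⟩ := exists_min_image _ π hfr
      simp only [mem_filter] at hp hmin
      have hsrc : ∀ u, u ∈ S ∨ u ∈ G → ¬ r u p := by
        rintro u (hu | hu) hr
        · exact hp.2 ⟨u, hu, hr⟩
        have := hmin u ⟨hu, fun ⟨y, hy, hr'⟩ => hp.2 ⟨y, hy, htr _ _ _ hr' hr⟩⟩
        have := hπ _ _ hr
        omega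
      refine ⟨π p, {p}, ((h.h1 p hp.1).resolve_left hp.2).le, by simp, by simpa using hsrc,
        fun x hx hle => ?_, Or.inl ⟨p, hp.1, le_rfl, hsrc⟩⟩
      by_cases hx' : ∃ y ∈ S, r y x
      · exact Or.inr hx'
      · exact Or.inl (mem_singleton.2 (hinj (le_antisymm hle (hmin x ⟨hx, hx'⟩))))
    · obtain ⟨B, hB⟩ := exists_bound univ π
      refine ⟨max k B, ∅, le_max_left _ _, by simp, by simp, fun x hx _ => Or.inr ?_,
        Or.inr fun z => ((hB z (mem_univ _)).2.le.trans (le_max_right _ _))⟩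
      by_contra hx'
      exact hfr ⟨x, mem_filter.2 ⟨hx, hx'⟩⟩
  obtain ⟨L, T, R, hs, rfl, hT, hL, hR, c1, c2, -, c4, c5⟩ := cut htr π k' hG hne
    fun x _ y _ hr hx => hx.trans (hπ _ _ hr)
  have hcard := card_lt_of_split hs hT
  have hdesc := h.desc hF
  refine .cut ?_ (ih r π htr hπ hinj hF _ _ _ _ _ _ _ (h.right htr hπ hs hk hP2 c1 c2 c4 c5)
    (by omega) hR) hs hT (hF.le hdesc (by omega))
  rcases L.eq_empty_or_nonempty with rfl | hLne
  · exact .nil
  have hLdesc : F (2 * m + 27) ↑L := by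
    have e : (↑L : Set V) = ↑(L ∪ T ∪ R) ∩ (pre r T ∪ (({y | π y < k' + 1} \ suc r T) \ ↑T)) := by
      ext x
      simp only [mem_coe, Set.mem_inter_iff, Set.mem_union, Set.mem_diff, Set.mem_setOf_eq,
        mem_union]
      constructor
      · intro hx
        refine ⟨by tauto, ?_⟩
        by_cases hk' : k' < π x
        · exact Or.inl (c1 x hx hk')
        · refine Or.inr ⟨⟨by omega, ?_⟩, hs.dLS x hx⟩
          rintro ⟨y, hy, hr⟩
          exact hs.noarc y x (Or.inl hy) (Or.inl hx) hr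
      · rintro ⟨(hx | hx) | hx, h2⟩
        · exact hx
        · rcases h2 with ⟨y, hy, hr⟩ | h2
          · exact (hs.noarc x y (Or.inl hx) (Or.inr hy) hr).elim
          · exact (h2.2 hx).elim
        · rcases h2 with ⟨y, hy, hr⟩ | h2
          · exact (hs.noarc x y (Or.inr hx) (Or.inr hy) hr).elim
          · exact (h2.1.2 (c2 x hx (by have := h2.1.1; omega))).elim
    rw [e]
    exact hF.inter hdesc (hF.union (c := 2 * m + 7) (hF.pre hs.card.le) (hF.sdiff (c := 2 * m + 5)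
      (hF.sdiff (c := 2 * m + 3) (hF.lt _) (hF.suc hs.card.le) (by omega) (by omega))
      (hF.fin hs.card.le) (by omega) (by omega)) (by omega) (by omega)) (by omega) (by omega)
  obtain ⟨L2, T2, R2, hs2, rfl, hT2, hL2, hR2, d1, d2, -⟩ := cut htr
    (fun x => if x ∈ pre r T ∨ x ∈ P then 0 else 1) 0 hL hLne fun x hx y _ hr hw => by
      have h1 : ¬ (x ∈ pre r T ∨ x ∈ P) := fun h1 => by simp [h1] at hw
      have h2 : ¬ (y ∈ pre r T ∨ y ∈ P) := by
        rintro (⟨z, hz, hr'⟩ | h2)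
        · exact h1 (Or.inl ⟨z, hz, htr _ _ _ hr hr'⟩)
        · exact hPs y h2 x (Or.inr (by simp only [mem_union] at hx ⊢; tauto)) hr
      simp [h2]
  have hcard2 := card_lt_of_split hs2 hT2
  have e1 : ∀ x ∈ L2, (x ∈ pre r T ∨ x ∈ P) ∨ x ∈ pre r T2 := fun x hx => by
    by_cases h1 : x ∈ pre r T ∨ x ∈ P
    · exact Or.inl h1
    · exact Or.inr (d1 x hx (by simp [h1]))
  have e2 : ∀ x ∈ R2, (x ∈ pre r T ∨ x ∈ P) → x ∈ suc r T2 := fun x hx h1 =>
    d2 x hx (by simp [h1])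
  refine .cut (ih r π htr hπ hinj hF _ _ _ _ _ _ _
    (h.leftLeft (P := P.filter fun p => p ∈ L2 ∪ T2 ∪ R2) hF hs hs2 hR hR2
      ((card_filter_le _ _).trans hPc) (fun p hp => (mem_filter.1 hp).2) (fun x hx => ?_)
      fun x hx h1 => ?_) (by omega) hL2) ?_ hs2 hT2 hLdesc
  · simpa [hx] using e1 x hx
  · exact e2 x hx (h1.imp id fun h1 => (mem_filter.1 h1).1)
  · refine (ih (flip r) (fun x => - π x) (fun x y z h1 h2 => htr z y x h2 h1)
      (fun x y hr => by have := hπ y x hr; omega)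
      (fun x y e => hinj (neg_inj.1 e)) hF.flip _ _ _ _ _ _ _
      (h.leftRight (k' := k') hF hs hs2 (fun x hx => c1 x (by simp [hx])) c2 (fun x hx h1 => ?_)
        fun x hx => ?_) (by omega) hR2.flip).flip
    · rcases e1 x hx with (h2 | h2) | h2
      · exact Or.inl h2
      · obtain ⟨y, hy, hr⟩ := h1
        exact (hPs x h2 y (Or.inl hy) hr).elim
      · exact Or.inr h2
    · by_cases h1 : x ∈ pre r T ∨ x ∈ P
      · exact Or.inr (e2 x hx h1)
      · have h2 : π x ≤ k' := by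
          by_contra h2
          exact h1 (Or.inl (c1 x (by simp [hx]) (by omega)))
        exact Or.inl ⟨(hP1 x (by simp [hx]) h2).resolve_left fun h3 => h1 (Or.inr h3),
          fun h3 => h1 (Or.inl h3)⟩

theorem der_univ [Fintype V] (htr : ∀ x y z, r x y → r y z → r x z)
    (hπ : ∀ x y, r x y → π x < π y) (hinj : Function.Injective π) (hF : Fam r π F)
    (hG : Feas m r univ) : Der m r (F (2 * m + 27)) univ := by
  obtain ⟨B, hB⟩ := exists_bound univ π
  have hu : F 1 Set.univ := by simpa using hF.compl hF.empty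
  exact main _ r π htr hπ hinj hF ∅ univ ∅ ∅ Set.univ Set.univ (-B)
    ⟨by simp, by simp, by simp, by simp, by simp, by simp, by simp, hF.le hu (by omega),
      hF.le hu (by omega), fun x hx => Or.inr (hB x hx).1, by simp, by simp, by simp, by simp⟩
    le_rfl hG

lemma Der.feas {F : Set V → Prop} {G : Finset V} (h : Der m r F G) : Feas m r G := by
  induction h with
  | nil => exact feas_empty
  | cut _ _ hs _ _ ih1 ih2 => exact hs.feas ih1 ih2

end Vale.Agent.P324B
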