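import Vale.Agent.P324B.Alg
import Vale.Agent.Lib.PTime.Nat

/-! The dynamic program runs in polynomial time. -/

namespace Vale.Agent.P324B

open Vale.Agent.PT

attribute [local irreducible] PTime PB

variable {α : Type} [TEnc α]

@[fun_prop] lemma ptime_arc {a : α → List (List ℕ)} {u v : α → ℕ} (ha : PTime a) (hu : PTime u)
    (hv : PTime v) : PTime fun x => arc (a x) (u x) (v x) := by
  unfold arc; fun_prop

@[fun_prop] lemma ptime_clStep {W : α → List ℕ} {a A : α → List (List ℕ)} (hW : PTime W)
    (ha : PTime a) (hA : PTime A) : PTime fun x => clStep (W x) (a x) (A x) := by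
  unfold clStep; fun_prop

@[fun_prop] lemma ptime_rk {W : α → List ℕ} {A : α → List (List ℕ)} {u : α → ℕ} (hW : PTime W)
    (hA : PTime A) (hu : PTime u) : PTime fun x => rk (W x) (A x) (u x) := by
  unfold rk; fun_prop

lemma ptime_basics {W : α → List ℕ} {A : α → List (List ℕ)} (hW : PTime W)
    (hA : PTime A) : PTime fun x => basics (W x) (A x) := by
  unfold basics; fun_prop

lemma ptime_lev {W : α → List ℕ} {A : α → List (List ℕ)} (hW : PTime W)
    (hA : PTime A) : PTime fun x => lev (W x) (A x) := by
  unfold lev; fun_prop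

lemma ptime_fam {W : α → List ℕ} {A : α → List (List ℕ)} (hW : PTime W)
    (hA : PTime A) (d : ℕ) : PTime fun x => fam (W x) (A x) d := by
  induction d with
  | zero => exact ptime_basics hW hA
  | succ d ih => exact ptime_lev hW ih

lemma ptime_mem {l : α → List ℕ} (hl : PTime l) :
    PTime fun q : α × ℕ => decide (q.2 ∈ l q.1) :=
  PTime.decide_mem PTime.snd_id (hl.comp PTime.fst_id)

@[fun_prop] lemma ptime_chk (m : ℕ) {W G L R : α → List ℕ} {A : α → List (List ℕ)} (hW : PTime W)
    (hA : PTime A) (hG : PTime G) (hL : PTime L) (hR : PTime R) :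
    PTime fun x => chk m (W x) (A x) (G x) (L x) (R x) := by
  have g := ptime_mem hG
  have l := ptime_mem hL
  have r := ptime_mem hR
  have p1 : PTime fun q : (α × ℕ) × ℕ => q.1 := PTime.fst_id
  have p2 : PTime fun q : (α × ℕ) × ℕ => (q.1.1, q.2) := p1.fst.prodMk PTime.snd_id
  refine PTime.and (hW.all ((l.not.or g).and ((r.not.or g).and (l.and r).not)))
    (PTime.and (PTime.decide_eq (hW.filter (g.and (l.not.and r.not))).length (PTime.const m))
    (hW.all ((hW.comp PTime.fst_id).all (PTime.not (PTime.and ((g.comp p1).and (l.comp p1).not)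
      (PTime.and ((g.comp p2).and (r.comp p2).not) (PTime.decide_mem PTime.snd_id
        (PTime.list_getD (hA.comp p1.fst) p1.snd (PTime.const _)))))))))

@[fun_prop] lemma ptime_dpStep (m : ℕ) {W : α → List ℕ} {A Φ Fe : α → List (List ℕ)}
    (hW : PTime W) (hA : PTime A) (hΦ : PTime Φ) (hF : PTime Fe) :
    PTime fun x => dpStep m (W x) (A x) (Φ x) (Fe x) := by
  unfold dpStep; fun_prop

lemma ptime_dp (m : ℕ) {W : α → List ℕ} {A Φ : α → List (List ℕ)}
    (hW : PTime W) (hA : PTime A) (hΦ : PTime Φ) : PTime fun x => dp m (W x) (A x) (Φ x) := by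
  have h : PTime fun x => (dpStep m (W x) (A x) (Φ x))^[(W x).length] [[]] := by
    refine PTime.iterate_len hW (by fun_prop) (f := fun x => dpStep m (W x) (A x) (Φ x))
      (by fun_prop) (fun x => sz (Φ x) + 3) (by fun_prop) fun x k _ => ?_
    cases k with
    | zero => simp
    | succ k =>
      rw [Function.iterate_succ_apply', dpStep, sz_cons, sz_nil]
      have := sz_sublist (List.filter_sublist (l := Φ x) (p := fun G =>
        ((dpStep m (W x) (A x) (Φ x))^[k] [[]]).any fun L =>
        ((dpStep m (W x) (A x) (Φ x))^[k] [[]]).any fun R => chk m (W x) (A x) G L R))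
      omega
  unfold dp; fun_prop

lemma ptime_run (m : ℕ) {W : α → List ℕ} {A : α → List (List ℕ)}
    (hW : PTime W) (hA : PTime A) : PTime fun x => run m (W x) (A x) :=
  ptime_dp m hW hA (ptime_fam hW hA _)

lemma ptime_solve (m : ℕ) {a : α → List (List ℕ)} {T : α → ℕ} (ha : PTime a) (hT : PTime T)
    (hB : PB T) : PTime fun x => solve m (a x) (T x) := by
  have hW : PTime fun x => List.range (m * T x) := by fun_prop
  have hA : PTime fun x => (clStep (List.range (m * T x)) (a x))^[T x] [] := by
    refine PTime.iterate hT hB (by fun_prop) (f := fun x => clStep (List.range (m * T x)) (a x))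
      (ptime_clStep (hW.comp PTime.fst_id) (ha.comp PTime.fst_id) PTime.snd_id)
      (fun x => (List.range (m * T x)).length * (sz (List.range (m * T x)) + 1) + 1)
      (by fun_prop) fun x k _ => ?_
    cases k with
    | zero => simp
    | succ k =>
      rw [Function.iterate_succ_apply']
      refine (sz_list_le _ (B := sz (List.range (m * T x))) fun l hl => ?_).trans
        (by simp [clStep])
      obtain ⟨u, -, rfl⟩ := List.mem_map.1 hl
      exact sz_sublist List.filter_sublist
  exact PTime.and (by fun_prop) (ptime_run m hW hA)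

/-- the decision procedure -/
def decideSch (m : ℕ) (p : List (List ℕ) × ℕ) : Bool := solve m p.1 (min p.2 p.1.length)

lemma ptime_decideSch (m : ℕ) : PTime (decideSch m) :=
  ptime_solve m PTime.fst_id (by fun_prop)
    ((PB.length PTime.fst_id).of_le fun _ => min_le_right _ _)

lemma decideSch_iff {m T : ℕ} {adj : List (List ℕ)} :
    decideSch m (adj, T) = true ↔ HasSchedule m adj T :=
  solve_iff.trans hasSchedule_min

/-- the optimum makespan -/
def optimum (m : ℕ) (adj : List (List ℕ)) : ℕ :=
  ((List.range (adj.length + 1)).filter fun T => !decideSch m (adj, T)).length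

lemma ptime_optimum (m : ℕ) : PTime (optimum m) := by
  have h : PTime fun p : List (List ℕ) × ℕ => decideSch m (p.1, p.2) := ptime_decideSch m
  unfold optimum; fun_prop

lemma optimum_spec {m : ℕ} {adj : List (List ℕ)} (h : ∃ T, HasSchedule m adj T) :
    IsLeast {T | HasSchedule m adj T} (optimum m adj) := by
  classical
  have h1 : Nat.find h ≤ adj.length := Nat.find_min' h (Nat.find_spec h).len
  have e : optimum m adj = Nat.find h := by
    have e1 : ((List.range (adj.length + 1)).filter fun T => !decideSch m (adj, T)) =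
        (List.range (adj.length + 1)).filter fun T => decide (T < Nat.find h) := by
      refine List.filter_congr fun T _ => ?_
      rw [Bool.eq_iff_iff, Bool.not_eq_true', decide_eq_true_eq, ← Bool.not_eq_true, decideSch_iff]
      exact ⟨fun h2 => not_le.1 fun h3 => h2 ((Nat.find_spec h).mono h3), Nat.find_min h⟩
    rw [optimum, e1, len_filter]
    simp only [decide_eq_true_eq]
    rw [Fin.card_filter_val_lt]
    omega
  rw [e]
  exact ⟨Nat.find_spec h, fun T hT => Nat.find_min' h hT⟩

end Vale.Agent.P324B
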